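import Vale.Agent.P343.Link

/-!
The Sakoda-Sipser question: one-way (hence two-way) nondeterministic automata need exponentially
many states in every equivalent two-way deterministic automaton.
-/

namespace Vale.Agent.Results.P343.SakodaSipser

open Vale.Agent.P343

theorem result :
    (∀ h : ℕ, 2 ≤ h → ∃ (A Q : Type) (_ : Finite A) (_ : Finite Q) (M : TwoNFA A Q),
      M.IsOneWay ∧ Nat.card Q = h + 2 ∧
      ∀ (Q' : Type) (_ : Finite Q') (N : TwoNFA A Q'), N.IsDet →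
        (∀ w, N.Accepts w ↔ M.Accepts w) → 2 ^ ((h - 2) / 17) ≤ 2 * Nat.card Q') ∧
    (¬ ∃ p : Polynomial ℝ, ∀ (A Q : Type) (_ : Finite A) (_ : Finite Q) (M : TwoNFA A Q),
      ∃ (Q' : Type) (_ : Finite Q') (N : TwoNFA A Q'), N.IsDet ∧
        (∀ w, N.Accepts w ↔ M.Accepts w) ∧ (Nat.card Q' : ℝ) ≤ p.eval (Nat.card Q : ℝ)) ∧
    (¬ ∃ p : Polynomial ℝ, ∀ (A Q : Type) (_ : Finite A) (_ : Finite Q) (M : TwoNFA A Q),
      M.IsOneWay → ∃ (Q' : Type) (_ : Finite Q') (N : TwoNFA A Q'), N.IsDet ∧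
        (∀ w, N.Accepts w ↔ M.Accepts w) ∧ (Nat.card Q' : ℝ) ≤ p.eval (Nat.card Q : ℝ)) := by
  have h1 : ∀ h : ℕ, 2 ≤ h → ∃ (A Q : Type) (_ : Finite A) (_ : Finite Q) (M : TwoNFA A Q),
      M.IsOneWay ∧ Nat.card Q = h + 2 ∧
      ∀ (Q' : Type) (_ : Finite Q') (N : TwoNFA A Q'), N.IsDet →
        (∀ w, N.Accepts w ↔ M.Accepts w) → 2 ^ ((h - 2) / 17) ≤ 2 * Nat.card Q' := by
    intro h hh
    refine ⟨BRel (Fin h), Option (Option (Fin h)), by unfold BRel; infer_instance, inferInstance,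
      owl (Fin h), owl_oneWay _, by simp, fun Q' _ N hN H => owl_lower N hN H _ ?_⟩
    simp only [Fintype.card_fin]
    omega
  have h2 : ¬ ∃ p : Polynomial ℝ, ∀ (A Q : Type) (_ : Finite A) (_ : Finite Q) (M : TwoNFA A Q),
      M.IsOneWay → ∃ (Q' : Type) (_ : Finite Q') (N : TwoNFA A Q'), N.IsDet ∧
        (∀ w, N.Accepts w ↔ M.Accepts w) ∧ (Nat.card Q' : ℝ) ≤ p.eval (Nat.card Q : ℝ) := by
    rintro ⟨p, hp⟩
    have hl : 0 < Real.log 2 := Real.log_pos one_lt_two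
    have h3 := (Polynomial.tendsto_div_exp_atTop
      (p.comp (Polynomial.C (17 / Real.log 2) * Polynomial.X + Polynomial.C 4))).comp
      (tendsto_natCast_atTop_atTop.atTop_mul_const hl)
    obtain ⟨k, hk⟩ := (h3.eventually (gt_mem_nhds (show (0 : ℝ) < 1 / 2 by norm_num))).exists
    obtain ⟨A, Q, hA, hQ, M, h4, h5, h6⟩ := h1 (17 * k + 2) (by omega)
    obtain ⟨Q', hQ', N, h7, h8, h9⟩ := hp A Q hA hQ M h4
    have h10 := h6 Q' hQ' N h7 h8
    rw [show (17 * k + 2 - 2) / 17 = k by omega] at h10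
    have h11 : (2 : ℝ) ^ k ≤ 2 * Nat.card Q' := by exact_mod_cast h10
    have e1 : 17 / Real.log 2 * (k * Real.log 2) + 4 = (Nat.card Q : ℝ) := by
      rw [h5]; push_cast; field_simp; ring
    simp only [Function.comp, Polynomial.eval_comp, Polynomial.eval_add, Polynomial.eval_mul,
      Polynomial.eval_C, Polynomial.eval_X, e1] at hk
    rw [Real.exp_nat_mul, Real.exp_log two_pos, div_lt_iff₀ (by positivity)] at hk
    linarith
  exact ⟨h1, fun ⟨p, hp⟩ => h2 ⟨p, fun A Q hA hQ M _ => hp A Q hA hQ M⟩, h2⟩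

end Vale.Agent.Results.P343.SakodaSipser
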